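import Vale.Agent.P313.AC.Spec

/-!
# Module B: exact sum of `f` one-hot numbers by residues modulo all `q ≤ 2 m`
-/

namespace Vale.Agent.P313.AC.H81

open Finset

/-- a number divisible by all `1 ≤ q ≤ 2 m` is divisible by `centralBinom m` -/
theorem centralBinom_dvd {m d : ℕ} (h : ∀ q, 1 ≤ q → q ≤ 2 * m → q ∣ d) :
    Nat.centralBinom m ∣ d := by
  rw [Nat.dvd_iff_prime_pow_dvd_dvd]
  intro p k hp hk
  rcases Nat.eq_zero_or_pos k with rfl | hk0
  · simp
  have hne : Nat.centralBinom m ≠ 0 := Nat.centralBinom_ne_zero m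
  have h1 : k ≤ (Nat.centralBinom m).factorization p :=
    (hp.pow_dvd_iff_le_factorization hne).1 hk
  have hm : 0 < 2 * m := by
    rcases Nat.eq_zero_or_pos m with rfl | hm
    · exfalso
      simp at h1
      omega
    · omega
  have h2 : p ^ k ≤ 2 * m := by
    have h3 : p ^ (Nat.centralBinom m).factorization p ≤ 2 * m := by
      rw [Nat.centralBinom_eq_two_mul_choose]
      exact Nat.pow_factorization_choose_le hm
    exact (Nat.pow_le_pow_right hp.pos h1).trans h3
  exact h _ (Nat.one_le_iff_ne_zero.2 (pow_ne_zero _ hp.ne_zero)) h2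

/-- two numbers below `centralBinom m` are equal iff they agree modulo all `1 ≤ q ≤ 2 m` -/
theorem eq_iff_mod {m x y : ℕ} (hx : x < Nat.centralBinom m) (hy : y < Nat.centralBinom m) :
    x = y ↔ ∀ q, 1 ≤ q → q ≤ 2 * m → x % q = y % q := by
  constructor
  · rintro rfl q _ _
    rfl
  · intro h
    have key : ∀ a b : ℕ, a < Nat.centralBinom m → a ≤ b → b < Nat.centralBinom m →
        (∀ q, 1 ≤ q → q ≤ 2 * m → a % q = b % q) → a = b := by
      intro a b _ hab hb hq
      have h1 : Nat.centralBinom m ∣ b - a := centralBinom_dvd fun q h1 h2 =>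
        (Nat.modEq_iff_dvd' hab).1 (hq q h1 h2)
      have h2 : b - a = 0 := Nat.eq_zero_of_dvd_of_lt h1 (by omega)
      omega
    rcases le_total x y with hxy | hxy
    · exact key x y hx hxy hy h
    · exact (key y x hy hxy hx fun q h1 h2 => (h q h1 h2).symm).symm

/-- size of `centralBinom` -/
theorem two_pow_le_centralBinom (m : ℕ) : 2 ^ m ≤ Nat.centralBinom m := by
  induction m with
  | zero => simp
  | succ n ih =>
    have h := Nat.succ_mul_centralBinom_succ n
    have h2 : (n + 1) * (2 * Nat.centralBinom n) ≤ (n + 1) * Nat.centralBinom (n + 1) := by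
      rw [h]
      have : (n + 1) * 2 ≤ 2 * (2 * n + 1) := by omega
      calc (n + 1) * (2 * Nat.centralBinom n) = ((n + 1) * 2) * Nat.centralBinom n := by ring
        _ ≤ 2 * (2 * n + 1) * Nat.centralBinom n := Nat.mul_le_mul_right _ this
    have h3 : 2 * Nat.centralBinom n ≤ Nat.centralBinom (n + 1) :=
      Nat.le_of_mul_le_mul_left h2 (Nat.succ_pos n)
    rw [pow_succ]
    omega

/-- digit `i` of `ρ` in base `q` -/
def dig (q ρ i : ℕ) : ℕ := ρ / q ^ i % q

theorem dig_lt {q : ℕ} (hq : 0 < q) (ρ i : ℕ) : dig q ρ i < q := Nat.mod_lt _ hq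

/-- the number with given digits -/
def undig (q : ℕ) (c : ℕ → ℕ) : ℕ → ℕ
  | 0 => 0
  | f + 1 => undig q c f + c f * q ^ f

theorem undig_lt {q : ℕ} {c : ℕ → ℕ} :
    ∀ {f : ℕ}, (∀ i < f, c i < q) → undig q c f < q ^ f
  | 0, _ => by simp [undig]
  | f + 1, h => by
    have ih := undig_lt (f := f) fun i hi => h i (by omega)
    have h1 := h f (by omega)
    rw [undig, pow_succ]
    have : (c f + 1) * q ^ f ≤ q * q ^ f := Nat.mul_le_mul_right _ h1
    nlinarith

theorem dig_undig {q : ℕ} {c : ℕ → ℕ} :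
    ∀ {f : ℕ}, (∀ i < f, c i < q) → ∀ i < f, dig q (undig q c f) i = c i
  | 0, _, i, hi => by omega
  | f + 1, h, i, hi => by
    have hf := h f (by omega)
    have hq : 0 < q := by omega
    have ih := dig_undig (f := f) fun i hi => h i (by omega)
    have hlt := undig_lt (f := f) fun i hi => h i (by omega)
    rw [undig]
    rcases Nat.lt_succ_iff_lt_or_eq.1 hi with h1 | rfl
    · rw [← ih i h1]
      unfold dig
      have h2 : c f * q ^ f = (c f * q ^ (f - i - 1) * q) * q ^ i := by
        rw [mul_assoc, mul_assoc, ← pow_succ', ← pow_add]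
        congr 2
        omega
      rw [h2, Nat.add_mul_div_right _ _ (pow_pos hq _), Nat.add_mul_mod_self_right]
    · unfold dig
      rw [Nat.add_mul_div_right _ _ (pow_pos hq _), Nat.div_eq_of_lt hlt, zero_add,
        Nat.mod_eq_of_lt hf]

/-- **Module B.** `Hot i c` one-hot coding of the numbers `val i < V`, `i < f`; the sum is `v`
iff for all `1 ≤ q ≤ 2 m` there is a tuple of residues (a number `ρ < q ^ f`) with digit sum
`v` modulo `q`, all whose digits are the residues of the values. -/
theorem sum_hot_iff {f V m : ℕ} {val : ℕ → ℕ} {Hot : ℕ → ℕ → Prop}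
    (hhot : ∀ i < f, ∀ c < V, (Hot i c ↔ val i = c)) (hval : ∀ i < f, val i < V)
    (hm : f * V < Nat.centralBinom m) {v : ℕ} (hv : v < Nat.centralBinom m) :
    (∑ i ∈ range f, val i = v) ↔
      ∀ q, 1 ≤ q → q ≤ 2 * m → ∃ ρ < q ^ f,
        (∑ i ∈ range f, dig q ρ i) % q = v % q ∧
        ∀ i < f, ∃ c < V, Hot i c ∧ c % q = dig q ρ i := by
  have hsum : ∑ i ∈ range f, val i < Nat.centralBinom m := by
    refine lt_of_le_of_lt ?_ hm
    calc ∑ i ∈ range f, val i ≤ ∑ _i ∈ range f, V :=
          sum_le_sum fun i hi => (hval i (mem_range.1 hi)).le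
      _ = f * V := by simp
  rw [eq_iff_mod hsum hv]
  refine forall_congr' fun q => forall_congr' fun h1 => forall_congr' fun h2 => ?_
  constructor
  · intro h
    have hc : ∀ i < f, (fun i => val i % q) i < q := fun i _ => Nat.mod_lt _ h1
    refine ⟨undig q (fun i => val i % q) f, undig_lt hc, ?_, ?_⟩
    · have : ∑ i ∈ range f, dig q (undig q (fun i => val i % q) f) i
          = ∑ i ∈ range f, val i % q :=
        sum_congr rfl fun i hi => dig_undig hc i (mem_range.1 hi)
      rw [this, ← Finset.sum_nat_mod, h]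
    · intro i hi
      exact ⟨val i, hval i hi, (hhot i hi _ (hval i hi)).2 rfl, (dig_undig hc i hi).symm⟩
  · rintro ⟨ρ, _, hs, hr⟩
    have : ∀ i ∈ range f, val i % q = dig q ρ i := by
      intro i hi
      obtain ⟨c, hc, hh, e⟩ := hr i (mem_range.1 hi)
      rw [(hhot i (mem_range.1 hi) c hc).1 hh, e]
    rw [Finset.sum_nat_mod, sum_congr rfl this, hs]

theorem modB1 : AC.ModB1 := by
  intro V L v w hv hw hL h
  have hV : V < Nat.centralBinom (Nat.log 2 V + 1) :=
    lt_of_lt_of_le (Nat.lt_pow_succ_log_self (by norm_num) V) (two_pow_le_centralBinom _)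
  exact (eq_iff_mod (hv.trans hV) (hw.trans hV)).2 fun q h1 h2 => h q h1 (by omega)

theorem modB2 : AC.ModB2 := by
  intro V L f c v hL hv hs
  constructor
  · intro h q h1 _
    have hc : ∀ i < f, (fun i => c i % q) i < q := fun i _ => Nat.mod_lt _ h1
    refine ⟨undig q (fun i => c i % q) f, undig_lt hc, ?_, ?_⟩
    · have : ∑ i ∈ range f, undig q (fun i => c i % q) f / q ^ i % q
          = ∑ i ∈ range f, c i % q :=
        sum_congr rfl fun i hi => dig_undig hc i (mem_range.1 hi)
      rw [this, ← Finset.sum_nat_mod, h]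
    · intro i hi
      exact (dig_undig hc i hi).symm
  · intro h
    refine modB1 V L _ v hs hv hL fun q h1 h2 => ?_
    obtain ⟨ρ, _, hs', hr⟩ := h q h1 h2
    rw [Finset.sum_nat_mod, sum_congr rfl fun i hi => hr i (mem_range.1 hi), hs']

end Vale.Agent.P313.AC.H81
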