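import Vale.Agent.P313.AC.Spec

/-!
# Module C4: accuracy of the estimate
-/

namespace Vale.Agent.P313.AC.H81

open Finset

/-- few `g` with too many samples (abstract second moment form) -/
theorem no_side {ι : Type*} {G B : Finset ι} {X : ι → ℕ} {P w n K E A : ℕ}
    (hsum : ∑ g ∈ G, ((P : ℤ) * X g - n * w) ^ 2 ≤ (P : ℤ) ^ 3 * (n * w))
    (hP : 0 < P) (hE : 1 ≤ E) (hA : 0 < A) (hK : n ≤ K) (hK0 : E ^ 2 * A * P ≤ K * w)
    (hB : B ⊆ G) (hm : ∀ g ∈ B, (2 * E + 1) * K * w ≤ 2 * E * P * X g) :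
    #B * A ≤ 4 * P ^ 2 := by
  have hKw : 0 < K * w := lt_of_lt_of_le (by positivity) hK0
  have hnK : (n : ℤ) * w ≤ K * w := mul_le_mul_of_nonneg_right (by exact_mod_cast hK)
    (by positivity)
  have key : ∀ g ∈ B, (K : ℤ) * w ≤ |2 * E * ((P : ℤ) * X g - n * w)| := by
    intro g hg
    refine le_trans ?_ (le_abs_self _)
    have h1 : ((2 * E + 1) * K * w : ℤ) ≤ 2 * E * P * X g := by
      exact_mod_cast hm g hg
    nlinarith [h1, hnK, (by positivity : (0 : ℤ) ≤ 2 * E)]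
  have h1 : (#B : ℤ) * (K * w) ^ 2 ≤ 4 * E ^ 2 * ((P : ℤ) ^ 3 * (n * w)) := by
    refine le_trans ?_ (mul_le_mul_of_nonneg_left hsum (by positivity))
    rw [← nsmul_eq_mul, ← sum_const, mul_sum]
    refine (sum_le_sum fun v hv => ?_).trans
      (sum_le_sum_of_subset_of_nonneg hB fun v _ _ => by positivity)
    have h2 := pow_le_pow_left₀ (by positivity) (key v hv) 2
    rw [sq_abs] at h2
    calc ((K : ℤ) * w) ^ 2 ≤ _ := h2
      _ = _ := by ring
  have h3 : (#B : ℤ) * (K * w) ^ 2 ≤ 4 * E ^ 2 * ((P : ℤ) ^ 3 * (K * w)) :=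
    h1.trans (mul_le_mul_of_nonneg_left (mul_le_mul_of_nonneg_left hnK (by positivity))
      (by positivity))
  have h4 : (#B : ℤ) * (K * w) ≤ 4 * E ^ 2 * P ^ 3 := by
    have hpos : (0 : ℤ) < K * w := by exact_mod_cast hKw
    refine le_of_mul_le_mul_right ?_ hpos
    calc (#B : ℤ) * (K * w) * (K * w) = #B * (K * w) ^ 2 := by ring
      _ ≤ 4 * E ^ 2 * ((P : ℤ) ^ 3 * (K * w)) := h3
      _ = 4 * E ^ 2 * P ^ 3 * (K * w) := by ring
  have h5 : #B * (K * w) ≤ 4 * E ^ 2 * P ^ 3 := by exact_mod_cast h4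
  have h6 : (#B * A) * (E ^ 2 * P) ≤ (4 * P ^ 2) * (E ^ 2 * P) := by
    calc (#B * A) * (E ^ 2 * P) = #B * (E ^ 2 * A * P) := by ring
      _ ≤ #B * (K * w) := Nat.mul_le_mul_left _ hK0
      _ ≤ 4 * E ^ 2 * P ^ 3 := h5
      _ = (4 * P ^ 2) * (E ^ 2 * P) := by ring
  exact Nat.le_of_mul_le_mul_right h6 (by positivity)

/-- few `g` with too few samples (abstract second moment form) -/
theorem yes_side {ι : Type*} {G B : Finset ι} {X : ι → ℕ} {P w n K E A : ℕ}
    (hsum : ∑ g ∈ G, ((P : ℤ) * X g - n * w) ^ 2 ≤ (P : ℤ) ^ 3 * (n * w))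
    (hP : 0 < P) (hE : 1 ≤ E) (hA : 0 < A) (hK : (E + 1) * K ≤ E * n)
    (hK0 : E ^ 2 * A * P ≤ K * w)
    (hB : B ⊆ G) (hm : ∀ g ∈ B, 2 * E * P * X g ≤ (2 * E + 1) * K * w) :
    #B * A ≤ 16 * P ^ 2 := by
  have hKw : 0 < K * w := lt_of_lt_of_le (by positivity) hK0
  have hwpos : 0 < w := Nat.pos_of_ne_zero fun h => by simp [h] at hKw
  have hKS : K ≤ n := by
    by_contra h
    push Not at h
    have : E * n < (E + 1) * K := by nlinarith
    omega
  have hKpos : 0 < K := Nat.pos_of_ne_zero fun h => by simp [h] at hKw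
  have hSw : 0 < n * w := Nat.mul_pos (by omega) hwpos
  have key : ∀ g ∈ B, (n : ℤ) * w ≤ |4 * E * ((P : ℤ) * X g - n * w)| := by
    intro g hg
    refine le_trans ?_ (neg_le_abs _)
    have h1 : (2 * E * P * X g : ℤ) ≤ (2 * E + 1) * K * w := by
      exact_mod_cast hm g hg
    have h2 : ((E : ℤ) + 1) * K ≤ E * n := by exact_mod_cast hK
    have hE' : (1 : ℤ) ≤ E := by exact_mod_cast hE
    have hw' : (0 : ℤ) < w := by exact_mod_cast hwpos
    have h3 : 2 * (2 * (E : ℤ) + 1) * K ≤ (4 * E - 1) * n := by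
      have h5 : 2 * (2 * (E : ℤ) + 1) * K * (E + 1) ≤ (4 * E - 1) * n * (E + 1) := by
        calc 2 * (2 * (E : ℤ) + 1) * K * (E + 1) = 2 * (2 * E + 1) * ((E + 1) * K) := by ring
          _ ≤ 2 * (2 * E + 1) * (E * n) := mul_le_mul_of_nonneg_left h2 (by positivity)
          _ ≤ (4 * E - 1) * n * (E + 1) := by
            have h6 : 2 * (2 * (E : ℤ) + 1) * E ≤ (4 * E - 1) * (E + 1) := by nlinarith
            have h7 : (0 : ℤ) ≤ n := by positivity
            nlinarith [mul_le_mul_of_nonneg_right h6 h7]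
      exact le_of_mul_le_mul_right h5 (by positivity)
    have h8 := mul_le_mul_of_nonneg_right h3 hw'.le
    nlinarith [h1, h8]
  have h1 : (#B : ℤ) * (n * w) ^ 2 ≤ 16 * E ^ 2 * ((P : ℤ) ^ 3 * (n * w)) := by
    refine le_trans ?_ (mul_le_mul_of_nonneg_left hsum (by positivity))
    rw [← nsmul_eq_mul, ← sum_const, mul_sum]
    refine (sum_le_sum fun v hv => ?_).trans
      (sum_le_sum_of_subset_of_nonneg hB fun v _ _ => by positivity)
    have h2 := pow_le_pow_left₀ (by positivity) (key v hv) 2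
    rw [sq_abs] at h2
    calc ((n : ℤ) * w) ^ 2 ≤ _ := h2
      _ = _ := by ring
  have h4 : (#B : ℤ) * (n * w) ≤ 16 * E ^ 2 * P ^ 3 := by
    have hpos : (0 : ℤ) < n * w := by exact_mod_cast hSw
    refine le_of_mul_le_mul_right ?_ hpos
    calc (#B : ℤ) * (n * w) * (n * w) = #B * (n * w) ^ 2 := by ring
      _ ≤ 16 * E ^ 2 * ((P : ℤ) ^ 3 * (n * w)) := h1
      _ = 16 * E ^ 2 * P ^ 3 * (n * w) := by ring
  have h5 : #B * (n * w) ≤ 16 * E ^ 2 * P ^ 3 := by exact_mod_cast h4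
  have h6 : (#B * A) * (E ^ 2 * P) ≤ (16 * P ^ 2) * (E ^ 2 * P) := by
    calc (#B * A) * (E ^ 2 * P) = #B * (E ^ 2 * A * P) := by ring
      _ ≤ #B * (K * w) := Nat.mul_le_mul_left _ hK0
      _ ≤ #B * (n * w) := Nat.mul_le_mul_left _ (Nat.mul_le_mul_right _ hKS)
      _ ≤ 16 * E ^ 2 * P ^ 3 := h5
      _ = (16 * P ^ 2) * (E ^ 2 * P) := by ring
  exact Nat.le_of_mul_le_mul_right h6 (by positivity)

open Classical in
/-- the sampled part -/
noncomputable def spt (P w : ℕ) (S : Finset ℕ) (g : ℕ) : Finset ℕ := {u ∈ S | sam P w g u}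

theorem buc_lt {P Kb h u : ℕ} (hP : 0 < P) (hKb : 0 < Kb) : buc P (P / Kb + 1) h u < Kb := by
  unfold buc
  rw [Nat.div_lt_iff_lt_mul (Nat.succ_pos _)]
  have h1 : (h % P * u + h / P) % P < P := Nat.mod_lt _ hP
  have h2 : P < Kb * (P / Kb + 1) := Nat.lt_mul_div_succ P hKb
  exact h1.trans h2

/-- the bucket test counts exactly when the threshold is small -/
theorem bucket_iff (h2 : ModC2) {P K0 Kb K g t : ℕ} {S : Finset ℕ} (hP : P.Prime)
    (hKb : 0 < Kb) (hKbP : Kb ≤ P) (hS : ∀ u ∈ S, u < P) (ht : t ^ 2 ≤ Kb) :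
    (∃ h < P ^ 2, t ≤ nbk P K0 Kb S K g h) ↔ t ≤ #(spt P (wK P K0 K) S g) := by
  classical
  have himg : ∀ h, ({v ∈ range Kb | ∃ u ∈ S, sam P (wK P K0 K) g u ∧
      buc P (P / Kb + 1) h u = v} : Finset ℕ)
      = (spt P (wK P K0 K) S g).image (buc P (P / Kb + 1) h) := by
    intro h
    ext v
    rw [mem_filter, mem_image, mem_range]
    constructor
    · rintro ⟨_, u, hu, hs, hv⟩
      exact ⟨u, mem_filter.2 ⟨hu, hs⟩, hv⟩
    · rintro ⟨u, hu, hv⟩
      unfold spt at hu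
      rw [mem_filter] at hu
      exact ⟨hv ▸ buc_lt hP.pos hKb, u, hu.1, hu.2, hv⟩
  have hnbk : ∀ h, nbk P K0 Kb S K g h =
      #((spt P (wK P K0 K) S g).image (buc P (P / Kb + 1) h)) := by
    intro h
    rw [← himg]
    unfold nbk
    congr!
  constructor
  · rintro ⟨h, _, hh⟩
    rw [hnbk] at hh
    exact hh.trans card_image_le
  · intro h
    obtain ⟨T, hT, hTc⟩ := exists_subset_card_eq h
    obtain ⟨h', hh', hinj⟩ := h2 P Kb T hP (by omega) hKbP (by rw [hTc]; exact ht)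
      (fun u hu => hS u (filter_subset _ _ (hT hu)))
    refine ⟨h', hh', ?_⟩
    rw [hnbk, ← hTc, ← card_image_of_injOn (f := buc P (P / Kb + 1) h')
      (s := T) (fun x hx y hy e => hinj x hx y hy e)]
    exact card_le_card (image_subset_image hT)

theorem amp_of (h3 : ModC3) {P τ : ℕ} {p : ℕ → Prop} (hP : 0 < P)
    (hτ : 2 * Nat.log 2 P + 2 ≤ τ) (B : Finset ℕ) (hB : ∀ v < P ^ 2, ¬ p v → v ∈ B)
    (hc : 1000 * #B ≤ P ^ 2) : Amp P τ p := by
  classical
  refine (h3 P τ p hP hτ).1 (le_trans (Nat.mul_le_mul_left _ (card_le_card ?_)) hc)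
  intro v hv
  rw [mem_filter, mem_range] at hv
  exact hB v hv.1 hv.2

theorem not_amp_of (h3 : ModC3) {P τ : ℕ} {p : ℕ → Prop} (hP : 0 < P)
    (hτ : 2 * Nat.log 2 P + 2 ≤ τ) (B : Finset ℕ) (hB : ∀ v < P ^ 2, p v → v ∈ B)
    (hc : 40 * (τ + 1) * #B < P ^ 2) : ¬ Amp P τ p := by
  classical
  refine (h3 P τ p hP hτ).2 (lt_of_le_of_lt (Nat.mul_le_mul_left _ (card_le_card ?_)) hc)
  intro v hv
  rw [mem_filter, mem_range] at hv
  exact hB v hv.1 hv.2

theorem modC4 (h1 : ModC1) (h2 : ModC2) (h3 : ModC3) : ModC4 := by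
  classical
  intro P τ Bm K0 Kb U S hP hUP hKbP hBm hτ hK0 hKb hS
  have hP0 := hP.pos
  have hSP : ∀ u ∈ S, u < P := fun u hu => (hS u hu).trans hUP
  have hnU : #S ≤ U := by
    have : S ⊆ range U := fun u hu => mem_range.2 (hS u hu)
    simpa using card_le_card this
  have hK0' : 16000 ≤ K0 := by
    have : 1 ≤ Bm ^ 2 * (τ + 1) := Nat.mul_pos (by positivity) (by omega)
    nlinarith
  have hKb0 : 0 < Kb := by nlinarith
  -- small sizes
  have small : ∀ K ≤ K0, (Tst P τ Bm K0 Kb S K ↔ K ≤ #S) := by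
    intro K hK
    have hiff : ∀ g, (∃ h < P ^ 2, tK P K0 Bm K ≤ nbk P K0 Kb S K g h) ↔ K ≤ #S := by
      intro g
      have ht : tK P K0 Bm K = K := by simp [tK, hK]
      have hw : wK P K0 K = P := by simp [wK, hK]
      rw [ht, bucket_iff h2 hP hKb0 hKbP hSP (by nlinarith), hw]
      have : spt P P S g = S := by
        unfold spt
        refine filter_true_of_mem fun u _ => ?_
        exact Nat.mod_lt _ hP0
      rw [this]
    unfold Tst
    constructor
    · intro h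
      by_contra hc
      refine not_amp_of h3 hP0 hτ ∅ (fun v _ hv => absurd ((hiff v).1 hv) hc) ?_ h
      simp only [card_empty, mul_zero]
      positivity
    · intro h
      exact amp_of h3 hP0 hτ ∅ (fun v _ hv => absurd ((hiff v).2 h) hv) (by simp)
  -- large sizes
  have large : ∀ K, K0 < K → K ≤ U → (#S < K → ¬ Tst P τ Bm K0 Kb S K) ∧
      ((Bm + 1) * K ≤ Bm * #S → Tst P τ Bm K0 Kb S K) := by
    intro K hK hKU
    have hw : wK P K0 K = K0 * P / K + 1 := by simp [wK, not_le.2 hK]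
    have ht : tK P K0 Bm K = (2 * Bm + 1) * K * wK P K0 K / (2 * Bm * P) + 1 := by
      simp [tK, not_le.2 hK]
    have hKpos : 0 < K := by omega
    have hwP : wK P K0 K ≤ P := by
      rw [hw]
      have : K0 * P / K < P := by
        rw [Nat.div_lt_iff_lt_mul hKpos, mul_comm P]
        exact Nat.mul_lt_mul_of_pos_right hK hP0
      omega
    have hKw : K0 * P ≤ K * wK P K0 K := by
      rw [hw, mul_add, mul_one]
      have := Nat.lt_div_mul_add (a := K0 * P) hKpos
      rw [mul_comm K]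
      omega
    have hKw2 : K * wK P K0 K ≤ (K0 + 1) * P := by
      rw [hw, mul_add, mul_one, add_mul, one_mul]
      have := Nat.div_mul_le_self (K0 * P) K
      rw [mul_comm K]
      omega
    have htb : tK P K0 Bm K ≤ 2 * K0 := by
      rw [ht]
      have h5 : (2 * Bm + 1) * K * wK P K0 K / (2 * Bm * P) ≤ 2 * K0 - 1 := by
        refine Nat.div_le_of_le_mul ?_
        have h6 : (2 * Bm + 1) * K * wK P K0 K ≤ (2 * Bm + 1) * ((K0 + 1) * P) := by
          rw [mul_assoc]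
          exact Nat.mul_le_mul_left _ hKw2
        have h7 : (2 * Bm + 1) * (K0 + 1) ≤ 2 * Bm * (2 * K0 - 1) := by
          obtain ⟨k, hk⟩ : ∃ k, 2 * K0 - 1 = k := ⟨_, rfl⟩
          have hk' : 2 * K0 = k + 1 := by omega
          rw [hk]
          nlinarith
        calc _ ≤ (2 * Bm + 1) * ((K0 + 1) * P) := h6
          _ = (2 * Bm + 1) * (K0 + 1) * P := by ring
          _ ≤ 2 * Bm * (2 * K0 - 1) * P := Nat.mul_le_mul_right _ h7
          _ = 2 * Bm * P * (2 * K0 - 1) := by ring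
      omega
    have hiff : ∀ g, (∃ h < P ^ 2, tK P K0 Bm K ≤ nbk P K0 Kb S K g h) ↔
        (2 * Bm + 1) * K * wK P K0 K < 2 * Bm * P * #(spt P (wK P K0 K) S g) := by
      intro g
      rw [bucket_iff h2 hP hKb0 hKbP hSP (by nlinarith), ht, Nat.succ_le_iff,
        Nat.div_lt_iff_lt_mul (by positivity), mul_comm (#(spt P (wK P K0 K) S g))]
    have hsum : ∑ g ∈ range (P ^ 2), ((P : ℤ) * #(spt P (wK P K0 K) S g)
        - #S * wK P K0 K) ^ 2 ≤ (P : ℤ) ^ 3 * (#S * wK P K0 K) := by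
      have := h1 P (wK P K0 K) S hP hwP hSP
      unfold spt
      convert this using 5
    have hE2 : Bm ^ 2 * (16000 * (τ + 1)) * P ≤ K * wK P K0 K := by
      refine le_trans (Nat.mul_le_mul_right P ?_) hKw
      calc Bm ^ 2 * (16000 * (τ + 1)) = 16000 * Bm ^ 2 * (τ + 1) := by ring
        _ ≤ K0 := hK0
    constructor
    · intro hn
      obtain ⟨B, hBd⟩ : ∃ B : Finset ℕ, B = {g ∈ range (P ^ 2) |
        (2 * Bm + 1) * K * wK P K0 K < 2 * Bm * P * #(spt P (wK P K0 K) S g)} := ⟨_, rfl⟩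
      have h5 := no_side (B := B) hsum hP0 hBm (A := 16000 * (τ + 1)) (by positivity) hn.le hE2
        (by rw [hBd]; exact filter_subset _ _) (fun g hg => by
          rw [hBd, mem_filter] at hg
          exact hg.2.le)
      refine not_amp_of h3 hP0 hτ B (fun v hv hp => ?_) ?_
      · rw [hBd, mem_filter, mem_range]
        exact ⟨hv, (hiff v).1 hp⟩
      · have hP2 : 0 < P ^ 2 := by positivity
        have h6 : 40 * (τ + 1) * #B * 400 ≤ 4 * P ^ 2 := by
          calc _ = #B * (16000 * (τ + 1)) := by ring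
            _ ≤ _ := h5
        omega
    · intro hn
      obtain ⟨B, hBd⟩ : ∃ B : Finset ℕ, B = {g ∈ range (P ^ 2) |
        ¬ (2 * Bm + 1) * K * wK P K0 K < 2 * Bm * P * #(spt P (wK P K0 K) S g)} := ⟨_, rfl⟩
      have h5 := yes_side (B := B) hsum hP0 hBm (A := 16000 * (τ + 1)) (by positivity) hn hE2
        (by rw [hBd]; exact filter_subset _ _) (fun g hg => by
          rw [hBd, mem_filter] at hg
          exact not_lt.1 hg.2)
      refine amp_of h3 hP0 hτ B (fun v hv hp => ?_) ?_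
      · rw [hBd, mem_filter, mem_range]
        exact ⟨hv, fun h => hp ((hiff v).2 h)⟩
      · have h6 : 1000 * #B * 16 ≤ 16 * P ^ 2 := by
          calc _ = #B * (16000 * 1) := by ring
            _ ≤ #B * (16000 * (τ + 1)) :=
              Nat.mul_le_mul_left _ (Nat.mul_le_mul_left _ (by omega))
            _ ≤ _ := h5
        omega
  -- upper bound
  have hup : est P τ Bm K0 Kb U S ≤ #S := by
    by_contra hc
    push Not at hc
    have hne : est P τ Bm K0 Kb U S ≠ 0 := by omega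
    have hT : Tst P τ Bm K0 Kb S (est P τ Bm K0 Kb U S) :=
      Nat.findGreatest_of_ne_zero (P := fun K => Tst P τ Bm K0 Kb S K) rfl hne
    have hle : est P τ Bm K0 Kb U S ≤ U := Nat.findGreatest_le _
    rcases le_or_gt (est P τ Bm K0 Kb U S) K0 with h | h
    · have := (small _ h).1 hT
      omega
    · exact (large _ h hle).1 hc hT
  refine ⟨hup, ?_⟩
  rcases le_or_gt (#S) K0 with hs | hs
  · have hT := (small _ hs).2 le_rfl
    have h5 : #S ≤ est P τ Bm K0 Kb U S :=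
      Nat.le_findGreatest (P := fun K => Tst P τ Bm K0 Kb S K) hnU hT
    have := Nat.mul_le_mul_right Bm h5
    omega
  · have hK1 : (Bm + 1) * (Bm * #S / (Bm + 1)) ≤ Bm * #S := Nat.mul_div_le _ _
    have hKn : Bm * #S / (Bm + 1) ≤ #S := by
      refine Nat.div_le_of_le_mul ?_
      exact Nat.mul_le_mul_right _ (by omega)
    have hT : Tst P τ Bm K0 Kb S (Bm * #S / (Bm + 1)) := by
      rcases le_or_gt (Bm * #S / (Bm + 1)) K0 with h | h
      · exact (small _ h).2 hKn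
      · exact (large _ h (hKn.trans hnU)).2 hK1
    have h5 : Bm * #S / (Bm + 1) ≤ est P τ Bm K0 Kb U S :=
      Nat.le_findGreatest (P := fun K => Tst P τ Bm K0 Kb S K) (hKn.trans hnU) hT
    have h6 : Bm * #S < (Bm + 1) * (Bm * #S / (Bm + 1)) + (Bm + 1) := by
      have := Nat.lt_mul_div_succ (Bm * #S) (by omega : 0 < Bm + 1)
      rw [mul_add, mul_one] at this
      exact this
    have h7 := Nat.mul_le_mul_right Bm h5
    have h8 : Bm ≤ #S := by
      have : Bm ≤ Bm ^ 2 * (τ + 1) := by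
        have : Bm * 1 ≤ Bm * (Bm * (τ + 1)) := Nat.mul_le_mul_left _ (by
          exact Nat.mul_pos (by omega) (by omega))
        calc Bm = Bm * 1 := by ring
          _ ≤ _ := this
          _ = _ := by ring
      nlinarith
    nlinarith

end Vale.Agent.P313.AC.H81
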